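import Vale.Agent.P281.H83.HKT.Core
import Vale.Agent.P281.H152.SC.CoreG

/-!
# P281, T-HKT for the class C (helper225): the assembly
-/

open Set Filter Metric MeasureTheory Vale.Agent.P281 Vale.Agent.P281.H713
open Vale.Agent.P272.K (Chart IsKahler IsHermitian)
open Vale.Agent.P281.MF Vale.Agent.P281.ISO
open Vale.Agent.P281.H713.TZ Vale.Agent.P281.H64
open Vale.Agent.P281.H64.Gen
open Vale.Agent.P281.H64.Thin (IsThinSet)
open Vale.Agent.P281.H383.C (CTameOKStmt exists_good)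
open Vale.Agent.P281.H64.TK (GenNStmt)
open Vale.Agent.P281.H152.SC (HasPerG firstG)
open scoped Topology ContDiff Manifold

set_option linter.all false

noncomputable section

namespace Vale.Agent.P281.H225.HKT

open Vale.Agent.P281.H64.TK Vale.Agent.P281.H64.TK.TS Vale.Agent.P281.H83.HK
open Vale.Agent.P281.H83.HKT

/-- **T-HKT for the class C**: `X₁ → X` a modification, `X₁` Kähler. -/
def THKTCStmt : Prop :=
  ∀ (p d : ℕ) (X Y X₁ : Type) [TopologicalSpace X] [ChartedSpace (Cm (p + d)) X]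
    [TopologicalSpace Y] [ChartedSpace (Cm p) Y] [TopologicalSpace X₁]
    [ChartedSpace (Cm (p + d)) X₁] (f : X → Y) (Δ : Set X → ℝ) (u : X₁ → X), 0 < d →
    H511.Surf.IsFibration (Cm (p + d)) (Cm p) f Δ → TZ.S.IsModif (Cm (p + d)) u →
    (∃ w : Chart (p + d) X₁ → Cm (p + d) → Matrix (Fin (p + d)) (Fin (p + d)) ℂ, IsKahler w) →
    ∃ H : ℕ → Set Y, (∀ k, IsThinSet (Cm p) (H k)) ∧ ∀ y, (∀ k, y ∉ H k) →
      ∀ (F : Type) [TopologicalSpace F] [T2Space F] [ChartedSpace (Cm d) F] (i : F → X),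
        H511.Surf.IsFibre (Cm (p + d)) (Cm d) f y i → IsTH d F →
        TZ.S.kodF (p + d) p Δ (id : X → X) f ≤ TZ.S.kodX (Cm (p + d)) Δ

/-- **FORM**, in the form of the class C (`H511.HKT.formTG`) -/
def FormTGStmt : Prop :=
  ∀ (p d a m N : ℕ) (Z Y : Type) [TopologicalSpace Z] [T2Space Z] [ChartedSpace (Cm (p + d)) Z]
    [IsManifold 𝓘(ℂ, Cm (p + d)) ω Z] [TopologicalSpace Y] [T2Space Y] [ChartedSpace (Cm p) Y]
    [IsManifold 𝓘(ℂ, Cm p) ω Y] (f : Z → Y) (S : Set Y)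
    (w : Chart (p + d) Z → Cm (p + d) → Matrix (Fin (p + d)) (Fin (p + d)) ℂ)
    (B₁ : Matrix (Fin (a + a)) (Fin (a + a)) ℝ) (k : ℕ) (B : Matrix (Fin k) (Fin k) ℝ)
    (v : Fin k → ℝ) (R : ℝ), 0 < N → a + 2 ≤ d →
    ContMDiff 𝓘(ℂ, Cm (p + d)) 𝓘(ℂ, Cm p) ω f → IsKahler w →
    (∀ y₀ ∉ S, ∃ L : LocX (p := p) (d := d) f w a m N B₁ B v R, y₀ ∈ L.χ.source ∧
      L.χ y₀ ∈ L.T' ∧ ∀ t ∈ L.T', L.χ.symm t ∉ S) → HasPerG p d 0 f S

/-- **FIB for the class C**: `f ∘ u` has, over `y`, the data of T-HKT, if the fibre `F` of `f` over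
`y` is a torus times a symplectic manifold -/
def FibTCStmt : Prop :=
  ∀ (p d : ℕ) (X Y X₁ : Type) [TopologicalSpace X] [T2Space X] [ChartedSpace (Cm (p + d)) X]
    [IsManifold 𝓘(ℂ, Cm (p + d)) ω X] [TopologicalSpace Y] [T2Space Y] [ChartedSpace (Cm p) Y]
    [IsManifold 𝓘(ℂ, Cm p) ω Y] [TopologicalSpace X₁] [T2Space X₁] [CompactSpace X₁]
    [ChartedSpace (Cm (p + d)) X₁] [IsManifold 𝓘(ℂ, Cm (p + d)) ω X₁] (f : X → Y) (u : X₁ → X)
    (S : Set Y) (y : Y)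
    (w : Chart (p + d) X₁ → Cm (p + d) → Matrix (Fin (p + d)) (Fin (p + d)) ℂ), 0 < d →
    IsKahler w →
    ∀ (F : Type) [TopologicalSpace F] [T2Space F] [ChartedSpace (Cm d) F] (i : F → X),
      TK.TE.IsSquareE (p + d) p d f (fun z => f (u z)) u (id : Y → Y) S S y y i → IsTH d F →
      ∃ a m N, a + 2 ≤ d ∧ 0 < N ∧ NDegT p d a m N (fun z => f (u z)) y

theorem prop_mono {n p : ℕ} {Z Y : Type} [TopologicalSpace Z] [ChartedSpace (Cm n) Z]
    [TopologicalSpace Y] [ChartedSpace (Cm p) Y] {f : Z → Y} {S T : Set Y}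
    (h : IsProperFibration (n := n) (p := p) f S) (hST : S ⊆ T) (hT : IsClosed T) :
    IsProperFibration (n := n) (p := p) f T where
  isClosed := hT
  proper K hK hKT := h.proper K hK (hKT.trans (compl_subset_compl.2 hST))
  submersive x hx := h.submersive x fun hs => hx (hST hs)
  connected y hy := h.connected y fun hs => hy (hST hs)

/-- the assembly -/
theorem thktC_of (glob : GlobTStmt) (form : FormTGStmt) (fib : FibTCStmt) (bad : BadTStmt)
    (gen : GenNStmt) (exc : ExcStmt) (crit : CritStmt) (compl : ComplStmt) (har : HartogsStmt)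
    (lift : TU.LiftTStmt) (tame : CTameOKStmt) : THKTCStmt := by
  classical
  intro p d X Y X₁ _ _ _ _ _ _ f Δ u hd h hu hw
  obtain ⟨w, hw⟩ := hw
  have : T2Space X := h.hausdorff.1
  have : T2Space Y := h.hausdorff.2
  have : T2Space X₁ := hu.1.2.1
  have : CompactSpace X := h.compact
  have : ConnectedSpace X := h.connected
  have : IsManifold 𝓘(ℂ, Cm (p + d)) ω X := h.manifold.1
  have : IsManifold 𝓘(ℂ, Cm p) ω Y := h.manifold.2
  have : IsManifold 𝓘(ℂ, Cm (p + d)) ω X₁ := hu.1.2.2.2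
  have : CompactSpace X₁ := by
    have h1 := hu.2.2.1.isCompact_preimage (isCompact_univ (X := X))
    rw [preimage_univ] at h1
    exact ⟨h1⟩
  have hf₁ : ContMDiff 𝓘(ℂ, Cm (p + d)) 𝓘(ℂ, Cm p) ω fun z => f (u z) := h.hol.comp hu.2.1
  have hsurj : Function.Surjective f := fun y => (h.fibres y).nonempty
  have : PreconnectedSpace Y := by
    rw [preconnectedSpace_iff_univ, ← hsurj.range_eq]
    exact isPreconnected_range h.hol.continuous
  obtain ⟨S, hS, hP, hgood⟩ := exists_good (w := w) crit compl har exc h hu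
  have hP₀ := hP S subset_rfl hS.1
  have hP₁ : IsProperFibration (n := p + d) (p := p) (fun z => f (u z)) S :=
    (hgood S subset_rfl hS).prop₁
  have hpre := (compl p Y S hS).2
  have hsurj₁ : Function.Surjective fun z => f (u z) := by
    intro y
    by_contra hy
    have hMod := H349.NF.mod_modif exc hu
    have h1 : ∀ x, ∃ z, u z = x := fun x => ⟨_, H308.Bir.u_inv hMod x⟩
    obtain ⟨x, rfl⟩ := hsurj y
    obtain ⟨z, rfl⟩ := h1 x
    exact hy ⟨z, rfl⟩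
  -- the bad sets
  have hT : ∀ a m : ℕ, ∃ T : Set Y, S ⊆ T ∧ IsSmallSet (Cm p) T ∧
      ((a + 2 ≤ d ∧ ∃ y ∉ S, NDegU p d a m (fun z => f (u z)) y) →
        ∀ y ∉ T, NDegU p d a m (fun z => f (u z)) y) := by
    intro a m
    by_cases h1 : a + 2 ≤ d ∧ ∃ y ∉ S, NDegU p d a m (fun z => f (u z)) y
    · obtain ⟨T, hST, hT, hTN⟩ := bad p d a m X₁ Y (fun z => f (u z)) S w h1.1 hf₁ hsurj₁ hP₁ hS
        hpre hw h1.2
      exact ⟨T, hST, hT, fun _ => hTN⟩
    · exact ⟨S, subset_rfl, hS, fun h2 => absurd h2 h1⟩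
  choose T hST hT hTN using hT
  obtain ⟨H₁, hH₁, hsub⟩ := small_iUnion (p := p)
    (fun k => T (Nat.unpair k).1 (Nat.unpair k).2) (fun k => hT _ _)
  obtain ⟨H₂, hH₂, hmain₂⟩ := gen p d X Y f (u '' excSet (Cm (p + d)) u) h.hol
    (exc (p + d) X X₁ u hu)
  obtain ⟨L, hL, hLy⟩ := H349.NF.thin_two hH₂ hH₁
  refine ⟨L, hL, fun y hy F _ _ _ i hi hTH => ?_⟩
  obtain ⟨hy₂, hy₁⟩ := hLy y hy
  have hyT : ∀ a m, y ∉ T a m := by
    intro a m h2
    have h3 : y ∈ T (Nat.unpair (Nat.pair a m)).1 (Nat.unpair (Nat.pair a m)).2 := by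
      simpa using h2
    obtain ⟨k, hk⟩ := mem_iUnion.1 (hsub (Nat.pair a m) h3)
    exact hy₁ k hk
  have hyS : y ∉ S := fun h2 => hyT 0 0 (hST 0 0 h2)
  have hsq : TK.TE.IsSquareE (p + d) p d f (fun z => f (u z)) u (id : Y → Y) S S y y i :=
    ⟨hu, fun _ => rfl, h.hol, hf₁, hP₀, hP₁, hyS, hyS, preimage_id, hi, hmain₂ y hy₂ F i hi⟩
  obtain ⟨a, m, N, had, hN, hND⟩ := fib p d X Y X₁ f u S y w hd hw F i hsq hTH
  have hall := hTN a m ⟨had, y, hyS, hND.toU⟩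
  have hP₂ : IsProperFibration (n := p + d) (p := p) f (T a m) :=
    prop_mono hP₀ (hST a m) (hT a m).1
  have hP₃ : IsProperFibration (n := p + d) (p := p) (fun z => f (u z)) (T a m) :=
    prop_mono hP₁ (hST a m) (hT a m).1
  have hpre₂ := (compl p Y (T a m) (hT a m)).2
  obtain ⟨B₁, k, B, v, R, hR, hLoc⟩ := glob p d a m N X₁ Y (fun z => f (u z)) (T a m) w y had hf₁
    hP₃ hpre₂ hw (hyT a m) hND hall
  exact firstG har exc lift tame h hu hw (hT a m) hP₂ hP₃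
    (form p d a m N X₁ Y (fun z => f (u z)) (T a m) w B₁ k B v R hN had hf₁ hw hLoc)

end Vale.Agent.P281.H225.HKT
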