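import Vale.Agent.P281.H225.HKT.CoreC
import Vale.Agent.P281.H225.TG.ZD

/-!
# P281, project T-G (helper225): blow-ups of families of manifolds `T × H`, as `HasFam`
-/

open Set Filter Metric MeasureTheory Vale.Agent.P281 Vale.Agent.P281.H713
open Vale.Agent.P272.K (Chart IsKahler IsHermitian)
open Vale.Agent.P281.MF Vale.Agent.P281.ISO
open Vale.Agent.P281.H713.TZ Vale.Agent.P281.H64
open Vale.Agent.P281.H64.Gen
open Vale.Agent.P281.H64.Thin (IsThinSet)
open Vale.Agent.P281.H383.C (CTameOKStmt exists_good)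
open Vale.Agent.P281.H64.TK (GenNStmt)
open Vale.Agent.P281.H64.TU (Tame KTame RelFormT HasFormsT)
open Vale.Agent.P281.H152.SC (HasPerG firstG)
open Vale.Agent.P281.H969.TG (HasFormsD HasFam)
open Vale.Agent.P281.H225.TG (hasFormsD_periods)
open scoped Topology ContDiff Manifold

set_option linter.all false

noncomputable section

namespace Vale.Agent.P281.H225.HKT

open Vale.Agent.P281.H64.TK Vale.Agent.P281.H64.TK.TS Vale.Agent.P281.H83.HK
open Vale.Agent.P281.H83.HKT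

/-- **famHTC**: the relative forms of `f ∘ u`, `u : X₁ → X` a modification, `X₁` Kähler, `f` a family
of manifolds `T × H`. -/
theorem famHTC_of (glob : GlobTStmt) (form : FormTGStmt) (fib : FibTCStmt) (bad : BadTStmt)
    (gen : GenNStmt) (exc : ExcStmt) (crit : CritStmt) (compl : ComplStmt) (har : HartogsStmt)
    {p d : ℕ} {X Y X₁ : Type} [TopologicalSpace X] [ChartedSpace (H64.Cm (p + d)) X]
    [TopologicalSpace Y] [ChartedSpace (H64.Cm p) Y] [TopologicalSpace X₁]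
    [ChartedSpace (H64.Cm (p + d)) X₁] [IsManifold 𝓘(ℂ, H64.Cm (p + d)) ω X₁]
    [IsManifold 𝓘(ℂ, H64.Cm p) ω Y] {f : X → Y} {Δ : Set X → ℝ} {u : X₁ → X} (hd : 0 < d)
    (h : H511.Surf.IsFibration (H64.Cm (p + d)) (H64.Cm p) f Δ)
    (hu : TZ.S.IsModif (H64.Cm (p + d)) u)
    (hw : ∃ w : Chart (p + d) X₁ → H64.Cm (p + d) → Matrix (Fin (p + d)) (Fin (p + d)) ℂ,
      IsKahler w) :
    ∃ H : ℕ → Set Y, (∀ k, IsThinSet (H64.Cm p) (H k)) ∧ ∀ y, (∀ k, y ∉ H k) →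
      ∀ (F : Type) [TopologicalSpace F] [T2Space F] [ChartedSpace (H64.Cm d) F] (i : F → X),
        H511.Surf.IsFibre (H64.Cm (p + d)) (H64.Cm d) f y i → IsTH d F →
        ∀ Δ₁ : Set X₁ → ℝ, (∀ D, 0 ≤ Δ₁ D) → HasFam p d 0 (fun z => f (u z)) Δ₁ := by
  classical
  obtain ⟨w, hw⟩ := hw
  have : T2Space X := h.hausdorff.1
  have : T2Space Y := h.hausdorff.2
  have : T2Space X₁ := hu.1.2.1
  have : CompactSpace X := h.compact
  have : ConnectedSpace X := h.connected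
  have : IsManifold 𝓘(ℂ, Cm (p + d)) ω X := h.manifold.1
  have : CompactSpace X₁ := by
    have h1 := hu.2.2.1.isCompact_preimage (isCompact_univ (X := X))
    rw [preimage_univ] at h1
    exact ⟨h1⟩
  have hf₁ : ContMDiff 𝓘(ℂ, Cm (p + d)) 𝓘(ℂ, Cm p) ω fun z => f (u z) := h.hol.comp hu.2.1
  have hsurj : Function.Surjective f := fun y => (h.fibres y).nonempty
  have : PreconnectedSpace Y := by
    rw [preconnectedSpace_iff_univ, ← hsurj.range_eq]
    exact isPreconnected_range h.hol.continuous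
  obtain ⟨S, hS, hP, hgood⟩ := exists_good (w := w) crit compl har exc h hu
  have hP₀ := hP S subset_rfl hS.1
  have hP₁ : IsProperFibration (n := p + d) (p := p) (fun z => f (u z)) S :=
    (hgood S subset_rfl hS).prop₁
  have hpre := (compl p Y S hS).2
  have hsurj₁ : Function.Surjective fun z => f (u z) := by
    intro y
    by_contra hy
    have hMod := H349.NF.mod_modif exc hu
    have h1 : ∀ x, ∃ z, u z = x := fun x => ⟨_, H308.Bir.u_inv hMod x⟩
    obtain ⟨x, rfl⟩ := hsurj y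
    obtain ⟨z, rfl⟩ := h1 x
    exact hy ⟨z, rfl⟩
  -- the bad sets
  have hT : ∀ a m : ℕ, ∃ T : Set Y, S ⊆ T ∧ IsSmallSet (Cm p) T ∧
      ((a + 2 ≤ d ∧ ∃ y ∉ S, NDegU p d a m (fun z => f (u z)) y) →
        ∀ y ∉ T, NDegU p d a m (fun z => f (u z)) y) := by
    intro a m
    by_cases h1 : a + 2 ≤ d ∧ ∃ y ∉ S, NDegU p d a m (fun z => f (u z)) y
    · obtain ⟨T, hST, hT, hTN⟩ := bad p d a m X₁ Y (fun z => f (u z)) S w h1.1 hf₁ hsurj₁ hP₁ hS
        hpre hw h1.2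
      exact ⟨T, hST, hT, fun _ => hTN⟩
    · exact ⟨S, subset_rfl, hS, fun h2 => absurd h2 h1⟩
  choose T hST hT hTN using hT
  obtain ⟨H₁, hH₁, hsub⟩ := small_iUnion (p := p)
    (fun k => T (Nat.unpair k).1 (Nat.unpair k).2) (fun k => hT _ _)
  obtain ⟨H₂, hH₂, hmain₂⟩ := gen p d X Y f (u '' excSet (Cm (p + d)) u) h.hol
    (exc (p + d) X X₁ u hu)
  obtain ⟨L, hL, hLy⟩ := H349.NF.thin_two hH₂ hH₁
  refine ⟨L, hL, fun y hy F _ _ _ i hi hTH Δ₁ hΔ₁ => ?_⟩
  obtain ⟨hy₂, hy₁⟩ := hLy y hy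
  have hyT : ∀ a m, y ∉ T a m := by
    intro a m h2
    have h3 : y ∈ T (Nat.unpair (Nat.pair a m)).1 (Nat.unpair (Nat.pair a m)).2 := by
      simpa using h2
    obtain ⟨k, hk⟩ := mem_iUnion.1 (hsub (Nat.pair a m) h3)
    exact hy₁ k hk
  have hyS : y ∉ S := fun h2 => hyT 0 0 (hST 0 0 h2)
  have hsq : TK.TE.IsSquareE (p + d) p d f (fun z => f (u z)) u (id : Y → Y) S S y y i :=
    ⟨hu, fun _ => rfl, h.hol, hf₁, hP₀, hP₁, hyS, hyS, preimage_id, hi, hmain₂ y hy₂ F i hi⟩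
  obtain ⟨a, m, N, had, hN, hND⟩ := fib p d X Y X₁ f u S y w hd hw F i hsq hTH
  have hall := hTN a m ⟨had, y, hyS, hND.toU⟩
  have hP₂ : IsProperFibration (n := p + d) (p := p) f (T a m) :=
    prop_mono hP₀ (hST a m) (hT a m).1
  have hP₃ : IsProperFibration (n := p + d) (p := p) (fun z => f (u z)) (T a m) :=
    prop_mono hP₁ (hST a m) (hT a m).1
  have hpre₂ := (compl p Y (T a m) (hT a m)).2
  obtain ⟨B₁, k, B, v, R, hR, hLoc⟩ := glob p d a m N X₁ Y (fun z => f (u z)) (T a m) w y had hf₁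
    hP₃ hpre₂ hw (hyT a m) hND hall
  obtain ⟨V, iV1, iV2, iV3, n, m', b, t, M, s, Q, B', v', e, ι, U, π, P, η, hM, hC, -⟩ :=
    form p d a m N X₁ Y (fun z => f (u z)) (T a m) w B₁ k B v R hN had hf₁ hw hLoc
  refine ⟨w, T a m, hw.toIsHermitian, hT a m, hP₃, fun e₀ y hy => ?_⟩
  refine hasFormsD_periods hC (fun x => hf₁ x) e₀ hM ?_ ?_ ?_ hy
  · simp
  · intro D hD
    exact absurd rfl hD
  · intro D
    simpa using mul_nonneg (Nat.cast_nonneg M) (hΔ₁ D)

end Vale.Agent.P281.H225.HKT
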