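import Vale.Agent.P281.H225.HKT.FamHTC
import Vale.Agent.P281.H152.RC.HktIn
import Vale.Agent.P281.H702.HKT.GenP
import Vale.Agent.P281.H615.HKT.BasP

/-!
# P281, project T-G (helper225): blow-ups of families of manifolds `T × H`, the theorem
-/

open Vale.Agent.P281 Vale.Agent.P281.H713 Vale.Agent.P281.H64 Vale.Agent.P281.H64.TK.TS
open Vale.Agent.P281.H713.TZ
open Vale.Agent.P281.H64.Thin (IsThinSet)
open Vale.Agent.P281.H83.HK Vale.Agent.P281.H83.HKT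
open Vale.Agent.P272.K (Chart IsKahler)
open scoped Manifold ContDiff

noncomputable section

namespace Vale.Agent.P281.H225.HKT

/-- **famHTC** -/
theorem famHTC {p d : ℕ} {X Y X₁ : Type} [TopologicalSpace X]
    [ChartedSpace (H64.Cm (p + d)) X] [TopologicalSpace Y] [ChartedSpace (H64.Cm p) Y]
    [TopologicalSpace X₁] [ChartedSpace (H64.Cm (p + d)) X₁]
    [IsManifold 𝓘(ℂ, H64.Cm (p + d)) ω X₁] [IsManifold 𝓘(ℂ, H64.Cm p) ω Y] {f : X → Y}
    {Δ : Set X → ℝ} {u : X₁ → X} (hd : 0 < d)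
    (h : H511.Surf.IsFibration (H64.Cm (p + d)) (H64.Cm p) f Δ)
    (hu : TZ.S.IsModif (H64.Cm (p + d)) u)
    (hw : ∃ w : Chart (p + d) X₁ → H64.Cm (p + d) → Matrix (Fin (p + d)) (Fin (p + d)) ℂ,
      IsKahler w) :
    ∃ H : ℕ → Set Y, (∀ k, IsThinSet (H64.Cm p) (H k)) ∧ ∀ y, (∀ k, y ∉ H k) →
      ∀ (F : Type) [TopologicalSpace F] [T2Space F] [ChartedSpace (H64.Cm d) F] (i : F → X),
        H511.Surf.IsFibre (H64.Cm (p + d)) (H64.Cm d) f y i → IsTH d F →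
        ∀ Δ₁ : Set X₁ → ℝ, (∀ D, 0 ≤ Δ₁ D) →
          H969.TG.HasFam p d 0 (fun z => f (u z)) Δ₁ :=
  famHTC_of (bGlob bInd) H152.RC.fTG
    (H152.RC.fTC H702.HKT.genPsi (H615.HKT.basPsi_of H702.HKT.genPsi)) bBad H383.KN.genN
    H737.Gen.exc H303.UF.crit H383.Gen.compl H485.Gen.har hd h hu hw

end Vale.Agent.P281.H225.HKT
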