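import Vale.Agent.P281.H225.HKT.FamHTC
import Vale.Agent.P281.H603.SG4.Stat
import Vale.Agent.P281.H702.Z.Br3

/-!
# P281, project T-G (helper225): blow-ups of families of manifolds `T × H`, in the letters of SG4
-/

open Set Filter Metric Vale.Agent.P281 Vale.Agent.P281.H713.TZ.S
open Vale.Agent.P272.K (Chart IsKahler)
open Vale.Agent.P281.MF Vale.Agent.P281.ISO
open Vale.Agent.P281.H511.Surf (IsFibration)
open Vale.Agent.P281.H64.Thin (IsThinSet)
open Vale.Agent.P281.H64.Z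
open Vale.Agent.P281.H969.TG (HasFam)
open Vale.Agent.P281.H64.Gen
open Vale.Agent.P281.H83.HKT (GlobTStmt BadTStmt)
open scoped Manifold ContDiff Topology

set_option linter.all false

noncomputable section

namespace Vale.Agent.P281.H225.HKT

theorem torSympl5 {d : ℕ} {F : Type} [TopologicalSpace F] [Man d F]
    (h : H603.SG4.TorSympl d F) : H64.Z5.TorSympl d F := by
  obtain ⟨a, n, H, i₁, i₂, Λ, g, h1, h2, h3, h4, h5, h6, h7, h8⟩ := h
  exact ⟨a, n, H, i₁, i₂, Λ, g, h1, h2, h3, h4, h5, h6, h7, h8⟩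

theorem isTH_of {d : ℕ} {F : Type} [TopologicalSpace F] [Man d F]
    [IsManifold 𝓘(ℂ, Cm d) ω F] (h : H603.SG4.TorSympl d F) : H83.HKT.IsTH d F :=
  H702.Z.isTH_of (torSympl5 h)

theorem famHTCS_of (glob : GlobTStmt) (form : FormTGStmt) (fib : FibTCStmt) (bad : BadTStmt)
    (gen : H64.TK.GenNStmt) (exc : ExcStmt) (crit : CritStmt) (compl : ComplStmt)
    (har : HartogsStmt) :
    ∀ (p d : ℕ) (X Y X₁ : Type) [TopologicalSpace X]
    [ChartedSpace (Cm (p + d)) X] [TopologicalSpace Y] [ChartedSpace (Cm p) Y]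
    [IsManifold 𝓘(ℂ, Cm p) ω Y] [TopologicalSpace X₁] [ChartedSpace (Cm (p + d)) X₁]
    [IsManifold 𝓘(ℂ, Cm (p + d)) ω X₁] (f : X → Y) (u : X₁ → X) (Δ₁ : Set X₁ → ℝ), 0 < d →
    IsFibration (Cm (p + d)) (Cm p) f (fun _ => 0) → IsModif (Cm (p + d)) u →
    Kahler (p + d) X₁ → J.IsSNC (Cm (p + d)) Δ₁ →
    ∃ H : ℕ → Set Y, Thins p H ∧ ∀ y, (∀ k, y ∉ H k) →
      ∀ (F : Type) [TopologicalSpace F] [T2Space F] [ChartedSpace (Cm d) F] (i : F → X),
        Fbr (p + d) d f y i → H603.SG4.TorSympl d F → HasFam p d 0 (fun z => f (u z)) Δ₁ := by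
  intro p d X Y X₁ _ _ _ _ _ _ _ _ f u Δ₁ hd h hu hw hΔ₁
  obtain ⟨H, hH, hm⟩ := famHTC_of glob form fib bad gen exc crit compl har hd h hu hw
  refine ⟨H, hH, fun y hy F _ _ _ i hi ht => ?_⟩
  have := hi.manifold
  exact hm y hy F i hi (isTH_of ht) Δ₁ fun D => (snc01 (JB.snc hΔ₁) D).1

end Vale.Agent.P281.H225.HKT
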