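import Vale.Agent.P281.H225.HKT.FamHTCS
import Vale.Agent.P281.H152.RC.HktIn
import Vale.Agent.P281.H702.HKT.GenP
import Vale.Agent.P281.H615.HKT.BasP
import Vale.Agent.P281.H603.SG4.Core

/-!
# P281, project T-G (helper225): the input `FamHTCStmt` of SG4
-/

open Vale.Agent.P281 Vale.Agent.P281.H64.TK.TS Vale.Agent.P281.H83.HK Vale.Agent.P281.H83.HKT

noncomputable section

namespace Vale.Agent.P281.H225.HKT

theorem famHTCS : H603.SG4.FamHTCStmt :=
  famHTCS_of (bGlob bInd) H152.RC.fTG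
    (H152.RC.fTC H702.HKT.genPsi (H615.HKT.basPsi_of H702.HKT.genPsi)) bBad H383.KN.genN
    H737.Gen.exc H303.UF.crit H383.Gen.compl H485.Gen.har

end Vale.Agent.P281.H225.HKT
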