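import Vale.Agent.P281.H225.KC.Cov
import Vale.Agent.P281.H511.HKT.Norm

/-!
# P281, T-HKT for the class C (helper225): the norm of the forms of project T-HKT, on open sets
-/

open Set Filter Metric MeasureTheory Vale.Agent.P281 Vale.Agent.P281.H713 Vale.Agent.P272.K
open scoped Topology ContDiff Manifold ComplexConjugate ENNReal

set_option linter.unusedSectionVars false

noncomputable section

namespace Vale.Agent.P281.H225.HKT

open Vale.Agent.P281.H64.TK Vale.Agent.P281.H64.TK.TS Vale.Agent.P281.H603.K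
open Vale.Agent.P281.H864.K
open Vale.Agent.P281.H511.HKT
open Vale.Agent.P281.H511.HK (enorm_rpow)
open Vale.Agent.P281.H511.TS (lint_int)
open Vale.Agent.P281.H603.TE (sub fsub fW idx rep exists_rep ccs)
open Vale.Agent.P281.H225 (lint_polyA_le)
open Vale.Agent.P281.H225.C (polyInA_sub)
open Vale.Agent.P281.H225.KC (lift_open)

attribute [local instance] ccs

variable {p d : ℕ} {Z Y : Type} [TopologicalSpace Z] [T2Space Z] [ChartedSpace (Cm (p + d)) Z]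
  [IsManifold 𝓘(ℂ, Cm (p + d)) ω Z] [TopologicalSpace Y] [T2Space Y] [ChartedSpace (Cm p) Y]
  [IsManifold 𝓘(ℂ, Cm p) ω Y] {f : Z → Y} {L : LG (p := p) (d := d) f}

/-- **the norm**, on open sets -/
theorem lint_etaO {N : ℕ} {D : IX L → Cm p × Cm d → ℂ} (hD : IsND L N D)
    (hf : ContMDiff 𝓘(ℂ, Cm (p + d)) 𝓘(ℂ, Cm p) ω f) (hN : 0 < N) {q : Cm d → Z}
    {O : Set (Cm d)} (hO : IsOpen O)
    (hq : ∀ v ∈ O, ContMDiffAt 𝓘(ℂ, Cm d) 𝓘(ℂ, Cm (p + d)) ω q v) (hinj : InjOn q O) {y : Y}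
    (hqy : ∀ v ∈ O, f (q v) = y) (hy : y ∈ U L)
    {G : Fin (SK L hy).N → Cm d → ℝ} (hG : ∀ i, ContinuousOn (G i) (ball 0 3))
    (h0 : ∀ i z, 0 ≤ G i z)
    (hGD : ∀ i, ∀ z ∈ ball (0 : Cm d) 3,
      ‖D i (L.χ y, z)‖ₑ ^ (2 / (N : ℝ)) ≤ ENNReal.ofReal (G i z)) :
    ∫⁻ u in O, ‖pull (Cm (p + d)) (eta L N D) q u‖ₑ ^ (2 / (N : ℝ)) ≤
      ENNReal.ofReal ((SK L hy).int fun i z => ((G i z : ℝ) : ℂ)).re := by
  obtain ⟨A, q', hAO, hAo, hnull, hqq, hpoly⟩ := lift_open L.model hy.1 (L.hT' hy.2) hO hq hinj hqy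
  have hae : (O : Set (Cm d)) =ᵐ[volume] (A : Set (Cm d)) :=
    Filter.EventuallyLE.antisymm (ae_le_set.2 hnull) (Eventually.of_forall fun _ hx => hAO hx)
  rw [setLIntegral_congr hae]
  rw [← lint_int (SK L hy) hG h0]
  refine lint_polyA_le hAo.measurableSet (polyInA_sub L.K hpoly) _ _ ?_
  intro i u hu z hz γ θ hθ hθz hev
  obtain ⟨r, hr, hball⟩ := Metric.isOpen_iff.1 hAo u hu
  have hfu : f (q u) = y := hqy u (hAO hu)
  have hpd : IsPolydisc (Cm (p + d)) f q u r :=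
    ⟨fun v hv => hq v (hAO (hball hv)), hinj.mono (hball.trans hAO), fun v hv => by
      rw [hqy v (hAO (hball hv)), hfu]⟩
  have h1 := pull_eta (L := L) hD hf hpd (by rw [hfu]; exact hy) (q' := q')
    (fun v hv => by rw [hfu]; exact hqq v (hball hv)) (mem_ball_self hr) hz (γ := (γ : L.Γ)) hθ hθz
    (by rw [hfu]; exact hev)
  rw [h1, hfu, enorm_rpow hN]
  gcongr
  exact hGD i z hz

end Vale.Agent.P281.H225.HKT
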